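import Mathlib

namespace Vale.Agent.Lib.P201.H86

open Finset

section Abstract

variable {A B X : Type*} [Ring A] [Ring B]

/-- The kernel of a ring homomorphism, as an additive subgroup written as a `ℤ`-submodule. -/
def kerZ (π : A →+* B) : Submodule ℤ A where
  carrier := {a | π a = 0}
  add_mem' := by
    intro a b ha hb
    change π a = 0 at ha
    change π b = 0 at hb
    change π (a + b) = 0
    rw [map_add, ha, hb, add_zero]
  zero_mem' := map_zero π
  smul_mem' := by
    intro c a ha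
    change π a = 0 at ha
    change π (c • a) = 0
    rw [map_zsmul, ha, smul_zero]

theorem mem_kerZ (π : A →+* B) (a : A) : a ∈ kerZ π ↔ π a = 0 := Iff.rfl

/-- The filtration of `A` by the powers of the kernel of `π`:
`Fil π 0 = A` and `Fil π (k+1) = (ker π) * Fil π k`. -/
def Fil (π : A →+* B) : ℕ → Submodule ℤ A
  | 0 => ⊤
  | k + 1 => kerZ π * Fil π k

theorem Fil_zero (π : A →+* B) : Fil π 0 = ⊤ := rfl

theorem Fil_succ (π : A →+* B) (k : ℕ) : Fil π (k + 1) = kerZ π * Fil π k := rfl

theorem Fil_mul_left (π : A →+* B) (k : ℕ) (c : A) {a : A} (ha : a ∈ Fil π k) :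
    c * a ∈ Fil π k := by
  induction k generalizing a with
  | zero => simp [Fil_zero]
  | succ k ih =>
    rw [Fil_succ] at ha ⊢
    refine Submodule.mul_induction_on ha ?_ ?_
    · intro j hj b hb
      rw [← mul_assoc]
      refine Submodule.mul_mem_mul ?_ hb
      rw [mem_kerZ] at hj ⊢
      rw [map_mul, hj, mul_zero]
    · intro x y hx hy
      rw [mul_add]
      exact Submodule.add_mem _ hx hy

theorem Fil_mul_right (π : A →+* B) (k : ℕ) (c : A) {a : A} (ha : a ∈ Fil π k) :
    a * c ∈ Fil π k := by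
  induction k generalizing a with
  | zero => simp [Fil_zero]
  | succ k ih =>
    rw [Fil_succ] at ha ⊢
    refine Submodule.mul_induction_on ha ?_ ?_
    · intro j hj b hb
      rw [mul_assoc]
      exact Submodule.mul_mem_mul hj (ih hb)
    · intro x y hx hy
      rw [add_mul]
      exact Submodule.add_mem _ hx hy

theorem Fil_one (π : A →+* B) : Fil π 1 = kerZ π := by
  rw [Fil_succ, Fil_zero]
  apply le_antisymm
  · rw [Submodule.mul_le]
    intro j hj b _
    rw [mem_kerZ] at hj ⊢
    rw [map_mul, hj, zero_mul]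
  · intro j hj
    have : j * 1 ∈ kerZ π * (⊤ : Submodule ℤ A) := Submodule.mul_mem_mul hj Submodule.mem_top
    rwa [mul_one] at this

theorem top_mul_kerZ (π : A →+* B) : (⊤ : Submodule ℤ A) * kerZ π = kerZ π := by
  apply le_antisymm
  · rw [Submodule.mul_le]
    intro b _ j hj
    rw [mem_kerZ] at hj ⊢
    rw [map_mul, hj, mul_zero]
  · intro j hj
    have : 1 * j ∈ (⊤ : Submodule ℤ A) * kerZ π := Submodule.mul_mem_mul Submodule.mem_top hj
    rwa [one_mul] at this

theorem Fil_succ' (π : A →+* B) (k : ℕ) : Fil π (k + 1) = Fil π k * kerZ π := by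
  induction k with
  | zero => rw [Fil_one, Fil_zero, top_mul_kerZ]
  | succ k ih =>
    calc Fil π (k + 1 + 1) = kerZ π * Fil π (k + 1) := Fil_succ π (k + 1)
      _ = kerZ π * (Fil π k * kerZ π) := by rw [ih]
      _ = kerZ π * Fil π k * kerZ π := by rw [mul_assoc]
      _ = Fil π (k + 1) * kerZ π := by rw [← Fil_succ]

theorem Fil_succ_le (π : A →+* B) (k : ℕ) : Fil π (k + 1) ≤ Fil π k := by
  intro a ha
  rw [Fil_succ] at ha
  refine Submodule.mul_induction_on ha ?_ ?_
  · intro j _ b hb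
    exact Fil_mul_left π k j hb
  · intro x y hx hy
    exact Submodule.add_mem _ hx hy

theorem Fil_succ_le_ker (π : A →+* B) (k : ℕ) {a : A} (ha : a ∈ Fil π (k + 1)) : π a = 0 := by
  induction k with
  | zero => rw [Fil_one] at ha; exact ha
  | succ k ih => exact ih (Fil_succ_le π (k + 1) ha)

/-- The filtration defined by coefficient operators. -/
def Sfil (π : A →+* B) (D : X → A →+ A) : ℕ → Set A
  | 0 => Set.univ
  | k + 1 => {a | π a = 0 ∧ ∀ x, D x a ∈ Sfil π D k}

variable (π : A →+* B) (w : X → A) (hw : ∀ y, π (w y) = 0)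

include hw in
theorem sum_mem_Fil_succ (k : ℕ) (s : Finset X) (f : X → A) (hf : ∀ y ∈ s, f y ∈ Fil π k) :
    ∑ y ∈ s, w y * f y ∈ Fil π (k + 1) := by
  rw [Fil_succ]
  refine Submodule.sum_mem _ ?_
  intro y hy
  exact Submodule.mul_mem_mul (hw y) (hf y hy)

include hw in
theorem sum_mem_Fil_succ' (k : ℕ) (s : Finset X) (f : X → A) (hf : ∀ y ∈ s, f y ∈ Fil π k) :
    ∑ y ∈ s, f y * w y ∈ Fil π (k + 1) := by
  rw [Fil_succ']
  refine Submodule.sum_mem _ ?_
  intro y hy
  exact Submodule.mul_mem_mul (hf y hy) (hw y)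

section Right

variable (D : X → A →+ A)
  (hD : ∀ x c, D x (w x * c) = c) (hD0 : ∀ x y c, x ≠ y → D x (w y * c) = 0)

include hD hD0 in
open Classical in
theorem D_sum (x : X) (s : Finset X) (f : X → A) :
    D x (∑ y ∈ s, w y * f y) = if x ∈ s then f x else 0 := by
  classical
  rw [map_sum]
  split_ifs with hx
  · rw [Finset.sum_eq_single x]
    · exact hD x _
    · intro y _ hyx
      exact hD0 x y _ (Ne.symm hyx)
    · intro h; exact absurd hx h
  · refine Finset.sum_eq_zero ?_
    intro y hy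
    refine hD0 x y _ ?_
    rintro rfl
    exact hx hy

variable (hR : ∀ a, π a = 0 → ∃ s : Finset X, ∃ f : X → A, a = ∑ y ∈ s, w y * f y)

include hD hD0 hR in
theorem D_mem_Fil (k : ℕ) (x : X) {a : A} (ha : a ∈ Fil π (k + 1)) : D x a ∈ Fil π k := by
  classical
  rw [Fil_succ] at ha
  refine Submodule.mul_induction_on ha ?_ ?_
  · intro j hj b hb
    obtain ⟨s, f, rfl⟩ := hR j hj
    rw [Finset.sum_mul]
    have h1 : ∑ y ∈ s, w y * f y * b = ∑ y ∈ s, w y * (fun y => f y * b) y := by
      refine Finset.sum_congr rfl ?_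
      intro y _
      rw [mul_assoc]
    rw [h1, D_sum w D hD hD0]
    split_ifs
    · exact Fil_mul_left π k _ hb
    · exact Submodule.zero_mem _
  · intro y z hy hz
    rw [map_add]
    exact Submodule.add_mem _ hy hz

include hD hD0 hR in
theorem canon_repr {a : A} (ha : π a = 0) :
    ∃ s : Finset X, a = ∑ y ∈ s, w y * D y a := by
  classical
  obtain ⟨s, f, h⟩ := hR a ha
  refine ⟨s, ?_⟩
  have h2 : ∀ y ∈ s, D y a = f y := by
    intro y hy
    rw [h, D_sum w D hD hD0, if_pos hy]
  calc a = ∑ y ∈ s, w y * f y := h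
    _ = ∑ y ∈ s, w y * D y a := by
      refine Finset.sum_congr rfl ?_
      intro y hy
      rw [h2 y hy]

include hD hD0 hR in
theorem Fil_le_Sfil (k : ℕ) {a : A} (ha : a ∈ Fil π k) : a ∈ Sfil π D k := by
  induction k generalizing a with
  | zero => exact Set.mem_univ a
  | succ k ih =>
    refine ⟨Fil_succ_le_ker π k ha, ?_⟩
    intro x
    exact ih (D_mem_Fil π w D hD hD0 hR k x ha)

include hw hD hD0 hR in
theorem Sfil_le_Fil (k : ℕ) {a : A} (ha : a ∈ Sfil π D k) : a ∈ Fil π k := by
  induction k generalizing a with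
  | zero => simp [Fil_zero]
  | succ k ih =>
    obtain ⟨h0, h1⟩ := ha
    obtain ⟨s, hs⟩ := canon_repr π w D hD hD0 hR h0
    rw [hs]
    exact sum_mem_Fil_succ π w hw k s _ (fun y _ => ih (h1 y))

end Right

section Left

variable (D' : X → A →+ A)
  (hD' : ∀ x c, D' x (c * w x) = c) (hD'0 : ∀ x y c, x ≠ y → D' x (c * w y) = 0)

include hD' hD'0 in
open Classical in
theorem D'_sum (x : X) (s : Finset X) (f : X → A) :
    D' x (∑ y ∈ s, f y * w y) = if x ∈ s then f x else 0 := by
  classical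
  rw [map_sum]
  split_ifs with hx
  · rw [Finset.sum_eq_single x]
    · exact hD' x _
    · intro y _ hyx
      exact hD'0 x y _ (Ne.symm hyx)
    · intro h; exact absurd hx h
  · refine Finset.sum_eq_zero ?_
    intro y hy
    refine hD'0 x y _ ?_
    rintro rfl
    exact hx hy

variable (hL : ∀ a, π a = 0 → ∃ s : Finset X, ∃ f : X → A, a = ∑ y ∈ s, f y * w y)

include hD' hD'0 hL in
theorem D'_mem_Fil (k : ℕ) (x : X) {a : A} (ha : a ∈ Fil π (k + 1)) : D' x a ∈ Fil π k := by
  classical
  rw [Fil_succ'] at ha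
  refine Submodule.mul_induction_on ha ?_ ?_
  · intro b hb j hj
    obtain ⟨s, f, rfl⟩ := hL j hj
    rw [Finset.mul_sum]
    have h1 : ∑ y ∈ s, b * (f y * w y) = ∑ y ∈ s, (fun y => b * f y) y * w y := by
      refine Finset.sum_congr rfl ?_
      intro y _
      rw [mul_assoc]
    rw [h1, D'_sum w D' hD' hD'0]
    split_ifs
    · exact Fil_mul_right π k _ hb
    · exact Submodule.zero_mem _
  · intro y z hy hz
    rw [map_add]
    exact Submodule.add_mem _ hy hz

include hD' hD'0 hL in
theorem canon_repr' {a : A} (ha : π a = 0) :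
    ∃ s : Finset X, a = ∑ y ∈ s, D' y a * w y := by
  classical
  obtain ⟨s, f, h⟩ := hL a ha
  refine ⟨s, ?_⟩
  have h2 : ∀ y ∈ s, D' y a = f y := by
    intro y hy
    rw [h, D'_sum w D' hD' hD'0, if_pos hy]
  calc a = ∑ y ∈ s, f y * w y := h
    _ = ∑ y ∈ s, D' y a * w y := by
      refine Finset.sum_congr rfl ?_
      intro y hy
      rw [h2 y hy]

end Left

variable (hB : ∀ a b : B, a * b = 0 → a = 0 ∨ b = 0)
  (D : X → A →+ A)
  (hD : ∀ x c, D x (w x * c) = c) (hD0 : ∀ x y c, x ≠ y → D x (w y * c) = 0)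
  (hR : ∀ a, π a = 0 → ∃ s : Finset X, ∃ f : X → A, a = ∑ y ∈ s, w y * f y)
  (D' : X → A →+ A)
  (hD' : ∀ x c, D' x (c * w x) = c) (hD'0 : ∀ x y c, x ≠ y → D' x (c * w y) = 0)
  (hL : ∀ a, π a = 0 → ∃ s : Finset X, ∃ f : X → A, a = ∑ y ∈ s, f y * w y)

include hw hB hD' hD'0 hL in
theorem order_mul_zero (n : ℕ) : ∀ a b : A, a ∉ Fil π 1 → b ∈ Fil π n → b ∉ Fil π (n + 1) →
    a * b ∉ Fil π (n + 1) := by
  classical
  induction n with
  | zero =>
    intro a b ha _ hb hab
    rw [zero_add, Fil_one, mem_kerZ] at hb hab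
    rw [Fil_one, mem_kerZ] at ha
    rw [map_mul] at hab
    rcases hB _ _ hab with h | h
    · exact ha h
    · exact hb h
  | succ n ih =>
    intro a b ha hb hb' hab
    have hb0 : π b = 0 := Fil_succ_le_ker π n hb
    obtain ⟨s, hs⟩ := canon_repr' π w D' hD' hD'0 hL hb0
    have hex : ∃ y ∈ s, D' y b ∉ Fil π (n + 1) := by
      by_contra hcon
      push Not at hcon
      apply hb'
      rw [hs]
      exact sum_mem_Fil_succ' π w hw (n + 1) s _ hcon
    obtain ⟨y0, hy0, hy0'⟩ := hex
    have h1 : D' y0 (a * b) = a * D' y0 b := by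
      conv_lhs => rw [hs]
      rw [Finset.mul_sum]
      have h2 : ∑ y ∈ s, a * (D' y b * w y) = ∑ y ∈ s, (fun y => a * D' y b) y * w y := by
        refine Finset.sum_congr rfl ?_
        intro y _
        rw [mul_assoc]
      rw [h2, D'_sum w D' hD' hD'0, if_pos hy0]
    have h3 : D' y0 (a * b) ∈ Fil π (n + 1) := D'_mem_Fil π w D' hD' hD'0 hL (n + 1) y0 hab
    rw [h1] at h3
    exact ih a (D' y0 b) ha (D'_mem_Fil π w D' hD' hD'0 hL n y0 hb) hy0' h3

include hw hB hD hD0 hR hD' hD'0 hL in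
theorem order_mul (m n : ℕ) : ∀ a b : A, a ∈ Fil π m → a ∉ Fil π (m + 1) → b ∈ Fil π n →
    b ∉ Fil π (n + 1) → a * b ∉ Fil π (m + n + 1) := by
  classical
  induction m with
  | zero =>
    intro a b _ ha hb hb'
    rw [zero_add] at ha ⊢
    exact order_mul_zero π w hw hB D' hD' hD'0 hL n a b ha hb hb'
  | succ m ih =>
    intro a b ha ha' hb hb' hab
    have ha0 : π a = 0 := Fil_succ_le_ker π m ha
    obtain ⟨s, hs⟩ := canon_repr π w D hD hD0 hR ha0
    have hex : ∃ y ∈ s, D y a ∉ Fil π (m + 1) := by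
      by_contra hcon
      push Not at hcon
      apply ha'
      rw [hs]
      exact sum_mem_Fil_succ π w hw (m + 1) s _ hcon
    obtain ⟨y0, hy0, hy0'⟩ := hex
    have h1 : D y0 (a * b) = D y0 a * b := by
      conv_lhs => rw [hs]
      rw [Finset.sum_mul]
      have h2 : ∑ y ∈ s, w y * D y a * b = ∑ y ∈ s, w y * (fun y => D y a * b) y := by
        refine Finset.sum_congr rfl ?_
        intro y _
        rw [mul_assoc]
      rw [h2, D_sum w D hD hD0, if_pos hy0]
    have hab' : a * b ∈ Fil π ((m + n + 1) + 1) := by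
      have : m + 1 + n + 1 = (m + n + 1) + 1 := by omega
      rwa [this] at hab
    have h3 : D y0 (a * b) ∈ Fil π (m + n + 1) := D_mem_Fil π w D hD hD0 hR (m + n + 1) y0 hab'
    rw [h1] at h3
    exact ih (D y0 a) b (D_mem_Fil π w D hD hD0 hR m y0 ha) hy0' hb hb' h3

theorem exists_order (hsep : ∀ a, (∀ k, a ∈ Fil π k) → a = 0) {a : A} (ha : a ≠ 0) :
    ∃ m, a ∈ Fil π m ∧ a ∉ Fil π (m + 1) := by
  classical
  have hex : ∃ k, a ∉ Fil π k := by
    by_contra hcon
    push Not at hcon
    exact ha (hsep a hcon)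
  have hk := Nat.find_spec hex
  have hmin := fun j => Nat.find_min hex (m := j)
  rcases Nat.eq_zero_or_pos (Nat.find hex) with h0 | hpos
  · rw [h0] at hk
    exact absurd (by simp [Fil_zero]) hk
  · refine ⟨Nat.find hex - 1, ?_, ?_⟩
    · by_contra hcon
      exact hmin _ (by omega) hcon
    · have : Nat.find hex - 1 + 1 = Nat.find hex := by omega
      rw [this]
      exact hk

include hw hB hD hD0 hR hD' hD'0 hL in
/-- The abstract graded argument: if `B` has no zero divisors, the kernel of `π` is generated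
on both sides by the `w y` with coefficient operators `D` and `D'`, and the filtration by the
powers of the kernel is separated, then `A` has no zero divisors. -/
theorem graded_domain (hsep : ∀ a, (∀ k, a ∈ Fil π k) → a = 0) :
    ∀ a b : A, a * b = 0 → a = 0 ∨ b = 0 := by
  intro a b hab
  by_contra hcon
  push Not at hcon
  obtain ⟨m, hm, hm'⟩ := exists_order π hsep hcon.1
  obtain ⟨n, hn, hn'⟩ := exists_order π hsep hcon.2
  have := order_mul π w hw hB D hD hD0 hR D' hD' hD'0 hL m n a b hm hm' hn hn'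
  apply this
  rw [hab]
  exact Submodule.zero_mem _

end Abstract

end Vale.Agent.Lib.P201.H86
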