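import Mathlib
import Vale.Agent.Lib.P201.H86.Graded

namespace Vale.Agent.Lib.P201.H86

open MonoidAlgebra

section Foldl

variable {A B X : Type*} [Ring A] [Ring B]

/-- Membership in all `Sfil` gives the vanishing of all iterated coefficients. -/
theorem Sfil_foldl (π : A →+* B) (D : X → A →+ A) (u : List X) :
    ∀ a : A, (∀ k, a ∈ Sfil π D k) → π (u.foldl (fun acc x => D x acc) a) = 0 := by
  induction u with
  | nil =>
    intro a ha
    exact (ha 1).1
  | cons x u ih =>
    intro a ha
    rw [List.foldl_cons]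
    exact ih (D x a) (fun k => (ha (k + 1)).2 x)

/-- The vanishing of all iterated coefficients gives membership in all `Sfil`. -/
theorem foldl_Sfil (π : A →+* B) (D : X → A →+ A) (k : ℕ) :
    ∀ a : A, (∀ u : List X, π (u.foldl (fun acc x => D x acc) a) = 0) → a ∈ Sfil π D k := by
  induction k with
  | zero =>
    intro a _
    exact Set.mem_univ a
  | succ k ih =>
    intro a ha
    refine ⟨ha [], ?_⟩
    intro x
    exact ih (D x a) (fun u => ha (x :: u))

end Foldl

section Inv

variable {K : Type*} [CommRing K] {G : Type*} [Group G]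

/-- Inversion of the group elements, as an additive automorphism of the group algebra. -/
noncomputable def invA : MonoidAlgebra K G ≃+ MonoidAlgebra K G :=
  MonoidAlgebra.mapDomainAddEquiv K (Equiv.inv G)

theorem invA_single (g : G) (r : K) :
    invA (MonoidAlgebra.single g r) = MonoidAlgebra.single g⁻¹ r := by
  unfold invA
  rw [MonoidAlgebra.mapDomainAddEquiv_single]
  rfl

theorem invA_mul (a b : MonoidAlgebra K G) : invA (a * b) = invA b * invA a := by
  induction a using MonoidAlgebra.induction_linear with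
  | zero => rw [zero_mul, map_zero, mul_zero]
  | add a₁ a₂ h₁ h₂ => rw [add_mul, map_add, map_add, mul_add, h₁, h₂]
  | single g r =>
    induction b using MonoidAlgebra.induction_linear with
    | zero => rw [mul_zero, map_zero, zero_mul]
    | add b₁ b₂ h₁ h₂ => rw [mul_add, map_add, map_add, add_mul, h₁, h₂]
    | single h s =>
      rw [MonoidAlgebra.single_mul_single, invA_single, invA_single, invA_single,
        MonoidAlgebra.single_mul_single, mul_inv_rev, mul_comm r s]

theorem invA_invA (a : MonoidAlgebra K G) : invA (invA a) = a := by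
  induction a using MonoidAlgebra.induction_linear with
  | zero => rw [map_zero, map_zero]
  | add a₁ a₂ h₁ h₂ => rw [map_add, map_add, h₁, h₂]
  | single g r => rw [invA_single, invA_single, inv_inv]

theorem invA_one : invA (1 : MonoidAlgebra K G) = 1 := by
  rw [MonoidAlgebra.one_def, invA_single, inv_one]

theorem invA_single_sub_one (g : G) :
    invA (MonoidAlgebra.single g (1 : K) - 1) = MonoidAlgebra.single g⁻¹ (1 : K) - 1 := by
  rw [map_sub, invA_single, invA_one]

theorem mapDomainRingHom_invA (N : Subgroup G) [N.Normal] (a : MonoidAlgebra K G) :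
    MonoidAlgebra.mapDomainRingHom K (QuotientGroup.mk' N) (invA a)
      = invA (MonoidAlgebra.mapDomainRingHom K (QuotientGroup.mk' N) a) := by
  induction a using MonoidAlgebra.induction_linear with
  | zero => rw [map_zero, map_zero, map_zero]
  | add a₁ a₂ h₁ h₂ => rw [map_add, map_add, map_add, map_add, h₁, h₂]
  | single g r =>
    have e : ∀ (h : G) (t : K), MonoidAlgebra.mapDomainRingHom K (QuotientGroup.mk' N)
        (MonoidAlgebra.single h t) = MonoidAlgebra.single (QuotientGroup.mk h : G ⧸ N) t :=
      fun h t => MonoidAlgebra.mapDomain_single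
    rw [invA_single, e, e, invA_single, QuotientGroup.mk_inv]

end Inv

section Assemble

variable {K : Type*} [CommRing K] {X : Type*} {G : Type*} [Group G]

/-- The automorphism of the free group inverting every generator. -/
noncomputable def sigma (X : Type*) : FreeGroup X →* FreeGroup X :=
  FreeGroup.lift (fun x => (FreeGroup.of x)⁻¹)

theorem sigma_of (x : X) : sigma X (FreeGroup.of x) = (FreeGroup.of x)⁻¹ := by
  unfold sigma
  rw [FreeGroup.lift_apply_of]

theorem sigma_sigma (f : FreeGroup X) : sigma X (sigma X f) = f := by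
  have h : (sigma X).comp (sigma X) = MonoidHom.id (FreeGroup X) := by
    apply FreeGroup.ext_hom
    intro x
    rw [MonoidHom.comp_apply, sigma_of, map_inv, sigma_of, inv_inv, MonoidHom.id_apply]
  have := DFunLike.congr_fun h f
  rwa [MonoidHom.comp_apply, MonoidHom.id_apply] at this

theorem sigma_injective : Function.Injective (sigma X) :=
  Function.LeftInverse.injective sigma_sigma

theorem comp_sigma_of (ι : FreeGroup X →* G) (x : X) :
    (ι.comp (sigma X)) (FreeGroup.of x) = (ι (FreeGroup.of x))⁻¹ := by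
  rw [MonoidHom.comp_apply, sigma_of, map_inv]

theorem comp_sigma_injective (ι : FreeGroup X →* G) (hι : Function.Injective ι) :
    Function.Injective (ι.comp (sigma X)) := by
  intro a b h
  rw [MonoidHom.comp_apply, MonoidHom.comp_apply] at h
  exact sigma_injective (hι h)

theorem comp_sigma_range (ι : FreeGroup X →* G) : (ι.comp (sigma X)).range = ι.range := by
  ext g
  constructor
  · rintro ⟨f, rfl⟩
    exact ⟨sigma X f, rfl⟩
  · rintro ⟨f, rfl⟩
    refine ⟨sigma X f, ?_⟩
    rw [MonoidHom.comp_apply, sigma_sigma]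

/-- Assembly: from the one-sided group-algebra-level data for the basis `x` (with separation)
and for the inverse basis `x⁻¹`, the zero-divisor property passes from `K[G ⧸ N]` to `K[G]`. -/
theorem free_kernel_of_data
    (N : Subgroup G) [N.Normal] (ι : FreeGroup X →* G) (hN : N = ι.range)
    (h1 : ∃ D : X → MonoidAlgebra K G →+ MonoidAlgebra K G,
      (∀ x c, D x ((MonoidAlgebra.single (ι (FreeGroup.of x)) 1 - 1) * c) = c) ∧
      (∀ x y c, x ≠ y → D x ((MonoidAlgebra.single (ι (FreeGroup.of y)) 1 - 1) * c) = 0) ∧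
      (∀ a, MonoidAlgebra.mapDomainRingHom K (QuotientGroup.mk' N) a = 0 →
        ∃ s : Finset X, a = ∑ y ∈ s, (MonoidAlgebra.single (ι (FreeGroup.of y)) 1 - 1) * D y a) ∧
      (∀ a, (∀ u : List X, MonoidAlgebra.mapDomainRingHom K (QuotientGroup.mk' N)
          (u.foldl (fun acc x => D x acc) a) = 0) → a = 0))
    (h2 : ∃ D : X → MonoidAlgebra K G →+ MonoidAlgebra K G,
      (∀ x c, D x ((MonoidAlgebra.single ((ι (FreeGroup.of x))⁻¹) 1 - 1) * c) = c) ∧
      (∀ x y c, x ≠ y → D x ((MonoidAlgebra.single ((ι (FreeGroup.of y))⁻¹) 1 - 1) * c) = 0) ∧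
      (∀ a, MonoidAlgebra.mapDomainRingHom K (QuotientGroup.mk' N) a = 0 →
        ∃ s : Finset X,
          a = ∑ y ∈ s, (MonoidAlgebra.single ((ι (FreeGroup.of y))⁻¹) 1 - 1) * D y a))
    (hB : ∀ a b : MonoidAlgebra K (G ⧸ N), a * b = 0 → a = 0 ∨ b = 0) :
    ∀ a b : MonoidAlgebra K G, a * b = 0 → a = 0 ∨ b = 0 := by
  obtain ⟨D, hD, hD0, hR, hS⟩ := h1
  obtain ⟨D2, hD2, hD20, hR2⟩ := h2
  set π := MonoidAlgebra.mapDomainRingHom K (QuotientGroup.mk' N) with hπ
  set w : X → MonoidAlgebra K G := fun y => MonoidAlgebra.single (ι (FreeGroup.of y)) 1 - 1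
    with hwdef
  have hw : ∀ y, π (w y) = 0 := by
    intro y
    have hmem : ι (FreeGroup.of y) ∈ N := by
      rw [hN]
      exact ⟨_, rfl⟩
    have e : π (MonoidAlgebra.single (ι (FreeGroup.of y)) (1 : K))
        = MonoidAlgebra.single (QuotientGroup.mk (ι (FreeGroup.of y)) : G ⧸ N) 1 :=
      MonoidAlgebra.mapDomain_single
    have e1 : (QuotientGroup.mk (ι (FreeGroup.of y)) : G ⧸ N) = 1 :=
      (QuotientGroup.eq_one_iff _).mpr hmem
    rw [hwdef]
    simp only
    rw [map_sub, map_one, e, e1, MonoidAlgebra.one_def]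
    exact sub_self _
  have hR' : ∀ a, π a = 0 → ∃ s : Finset X, ∃ f : X → MonoidAlgebra K G,
      a = ∑ y ∈ s, w y * f y := by
    intro a ha
    obtain ⟨s, hs⟩ := hR a ha
    exact ⟨s, fun y => D y a, hs⟩
  -- the operators on the other side
  let D' : X → MonoidAlgebra K G →+ MonoidAlgebra K G := fun x =>
    (invA.toAddMonoidHom.comp (D2 x)).comp invA.toAddMonoidHom
  have hD'apply : ∀ x a, D' x a = invA (D2 x (invA a)) := fun x a => rfl
  have hD' : ∀ x c, D' x (c * w x) = c := by
    intro x c
    rw [hD'apply, invA_mul, hwdef]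
    simp only
    rw [invA_single_sub_one, hD2, invA_invA]
  have hD'0 : ∀ x y c, x ≠ y → D' x (c * w y) = 0 := by
    intro x y c hxy
    rw [hD'apply, invA_mul, hwdef]
    simp only
    rw [invA_single_sub_one, hD20 x y _ hxy, map_zero]
  have hL : ∀ a, π a = 0 → ∃ s : Finset X, ∃ f : X → MonoidAlgebra K G,
      a = ∑ y ∈ s, f y * w y := by
    intro a ha
    have ha' : π (invA a) = 0 := by
      rw [hπ, mapDomainRingHom_invA, ← hπ, ha, map_zero]
    obtain ⟨s, hs⟩ := hR2 (invA a) ha'
    refine ⟨s, fun y => D' y a, ?_⟩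
    have h4 : invA (∑ y ∈ s, (MonoidAlgebra.single ((ι (FreeGroup.of y))⁻¹) (1 : K) - 1)
        * D2 y (invA a)) = ∑ y ∈ s, D' y a * w y := by
      rw [map_sum]
      refine Finset.sum_congr rfl ?_
      intro y _
      rw [invA_mul, invA_single_sub_one, inv_inv, hD'apply]
    rw [← hs, invA_invA] at h4
    exact h4
  have hsep : ∀ a, (∀ k, a ∈ Fil π k) → a = 0 := by
    intro a ha
    apply hS a
    intro u
    exact Sfil_foldl π D u a (fun k => Fil_le_Sfil π w D hD hD0 hR' k (ha k))
  exact graded_domain π w hw hB D hD hD0 hR' D' hD' hD'0 hL hsep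

end Assemble

end Vale.Agent.Lib.P201.H86
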