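import Mathlib
import Vale.Agent.Lib.P201.H86.Invert
import Vale.Agent.Lib.P201.helper10.FoxPackage
import Vale.Agent.Lib.P201.helper72.ALevel

/-!
# Free kernels: a second, independent assembly

The free-kernel theorem proved through a route disjoint from `helper60/FreeKernel.lean`:
free-group level from `helper10/FoxPackage.lean` (Fox derivatives for both signs, separation by
the one-case descent), group-algebra level from `helper72/ALevel.lean`, graded argument and
inversion trick from `H86/Graded.lean`, `H86/Invert.lean`.  Spare copy, not imported by a hand-in.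
-/

namespace Vale.Agent.Lib.P201.H86

open Vale.Agent.Lib.P201

theorem free_kernel_second {K : Type*} [CommRing K] {X : Type*} {G : Type*} [Group G]
    (ι : FreeGroup X →* G) (hι : Function.Injective ι) (N : Subgroup G) [N.Normal]
    (hN : N = ι.range)
    (hQ : ∀ a b : MonoidAlgebra K (G ⧸ N), a * b = 0 → a = 0 ∨ b = 0) :
    ∀ a b : MonoidAlgebra K G, a * b = 0 → a = 0 ∨ b = 0 := by
  have h1 := H72.AL_exists_left (K := K) ι N (fun x => H10.foxD (x, true)) hι hN
    H10.aug H10.aug_single H10.fox_h1 H10.fox_h2 H10.fox_h2'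
    (H10.fox_fund H10.aug H10.aug_single) (H10.fox_h5 H10.aug H10.aug_single)
  have hN' : N = (ι.comp (sigma X)).range := by
    rw [comp_sigma_range]
    exact hN
  have h2 := H72.AL_exists_left (K := K) (ι.comp (sigma X)) N (fun x => H10.foxD (x, true))
    (comp_sigma_injective ι hι) hN'
    H10.aug H10.aug_single H10.fox_h1 H10.fox_h2 H10.fox_h2'
    (H10.fox_fund H10.aug H10.aug_single) (H10.fox_h5 H10.aug H10.aug_single)
  obtain ⟨D2, hD2, hD20, hR2, -⟩ := h2
  refine free_kernel_of_data N ι hN h1 ⟨D2, ?_, ?_, ?_⟩ hQ
  · intro x c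
    have := hD2 x c
    rwa [comp_sigma_of] at this
  · intro x y c hxy
    have := hD20 x y c hxy
    rwa [comp_sigma_of] at this
  · intro a ha
    obtain ⟨s, hs⟩ := hR2 a ha
    refine ⟨s, ?_⟩
    simp only [comp_sigma_of] at hs
    exact hs

end Vale.Agent.Lib.P201.H86
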