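import Mathlib
import Vale.Agent.Lib.P201.helper40.LemmaC
import Vale.Agent.Lib.P201.helper60.FreeGlue

/-!
# Free kernels: the `IsFreeGroup` form and the iteration along a normal series

* `free_step`: `ι : FreeGroup X →* G` injective with normal range `N`; if `K[G ⧸ N]` has no zero
  divisors then `K[G]` has none (helper40's Lemma C plugged into helper60's assembly).
* `noZero_of_isFreeGroup`: the same with the hypothesis `[IsFreeGroup N]`.
* `noZero_of_free_series`: iteration.  If `⊥ = H 0 ≤ H 1 ≤ ... ≤ H k = N` are subgroups of `G`,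
  all normal in `G`, and `H (i + 1)` is generated by `H i` and the image of a homomorphism
  `φ i : FreeGroup (X i) →* G` that meets `H i` only in the image of `1` (so `H (i + 1) ⧸ H i` is
  free on the images of the generators), and `K[G ⧸ N]` has no zero divisors, then `K[G]` has none.
-/

namespace Vale.Agent.Lib.P201.H86

open Vale.Agent.Lib.P201

universe u v w

theorem free_step (K : Type u) [CommRing K] {X : Type w} {G : Type v} [Group G]
    (ι : FreeGroup X →* G) (hι : Function.Injective ι) (N : Subgroup G) [N.Normal]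
    (hN : N = ι.range)
    (hQ : ∀ a b : MonoidAlgebra K (G ⧸ N), a * b = 0 → a = 0 ∨ b = 0) :
    ∀ a b : MonoidAlgebra K G, a * b = 0 → a = 0 ∨ b = 0 :=
  Free.free_kernel_of_lemmaC (fun P h0 hD => H40.lemmaC K P h0 hD) ι hι N hN hQ

theorem noZero_of_isFreeGroup (K : Type u) [CommRing K] (G : Type v) [Group G]
    (N : Subgroup G) [N.Normal] [IsFreeGroup N]
    (hQ : ∀ a b : MonoidAlgebra K (G ⧸ N), a * b = 0 → a = 0 ∨ b = 0) :
    ∀ a b : MonoidAlgebra K G, a * b = 0 → a = 0 ∨ b = 0 := by
  obtain ⟨X, ⟨b⟩⟩ := IsFreeGroup.nonempty_basis (G := N)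
  refine free_step K (N.subtype.comp b.repr.symm.toMonoidHom) ?_ N ?_ hQ
  · intro f f' h
    exact b.repr.symm.injective (Subtype.val_injective h)
  · ext g
    constructor
    · intro hg
      refine ⟨b.repr ⟨g, hg⟩, ?_⟩
      change ((b.repr.symm (b.repr ⟨g, hg⟩) : N) : G) = g
      rw [MulEquiv.symm_apply_apply]
    · rintro ⟨f, rfl⟩
      exact (b.repr.symm f).2

theorem noZero_of_injective' {A B : Type*} [Ring A] [Ring B] (f : A →+* B)
    (hf : Function.Injective f) (hB : ∀ a b : B, a * b = 0 → a = 0 ∨ b = 0) :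
    ∀ a b : A, a * b = 0 → a = 0 ∨ b = 0 := by
  intro a b hab
  rcases hB (f a) (f b) (by rw [← map_mul, hab, map_zero]) with h | h
  · left
    exact hf (by rw [h, map_zero])
  · right
    exact hf (by rw [h, map_zero])

theorem noZero_of_free_series (K : Type u) [CommRing K] (k : ℕ) :
    ∀ (G : Type v) [Group G] (H : ℕ → Subgroup G) (X : ℕ → Type w)
      (φ : ∀ i, FreeGroup (X i) →* G) (N : Subgroup G) [N.Normal],
      H 0 = ⊥ → H k = N → (∀ i, i ≤ k → (H i).Normal) →
      (∀ i, i < k → H (i + 1) = H i ⊔ (φ i).range) →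
      (∀ i, i < k → ∀ f : FreeGroup (X i), φ i f ∈ H i → f = 1) →
      (∀ a b : MonoidAlgebra K (G ⧸ N), a * b = 0 → a = 0 ∨ b = 0) →
      ∀ a b : MonoidAlgebra K G, a * b = 0 → a = 0 ∨ b = 0 := by
  induction k with
  | zero =>
    intro G _ H X φ N _ h0 hk _ _ _ hQ
    have hN : N = ⊥ := by rw [← hk, h0]
    have hinj : Function.Injective (QuotientGroup.mk' N) := by
      rw [← MonoidHom.ker_eq_bot_iff, QuotientGroup.ker_mk', hN]
    refine noZero_of_injective' (MonoidAlgebra.mapDomainRingHom K (QuotientGroup.mk' N)) ?_ hQ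
    intro x y hxy
    exact MonoidAlgebra.mapDomain_injective hinj hxy
  | succ k ih =>
    intro G _ H X φ N _ h0 hk hnorm hsup hinf hQ
    have hN1 : (H 1).Normal := hnorm 1 (by omega)
    have hH1 : H 1 = (φ 0).range := by
      rw [hsup 0 (by omega), h0, bot_sup_eq]
    have hφ0 : Function.Injective (φ 0) := by
      rw [injective_iff_map_eq_one]
      intro f hf
      refine hinf 0 (by omega) f ?_
      rw [hf]
      exact Subgroup.one_mem _
    have hmono : ∀ i, i ≤ k → H 1 ≤ H (i + 1) := by
      intro i hi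
      induction i with
      | zero => exact le_rfl
      | succ i ihi =>
        refine (ihi (by omega)).trans ?_
        rw [hsup (i + 1) (by omega)]
        exact le_sup_left
    have h1N : H 1 ≤ N := hk ▸ hmono k le_rfl
    apply free_step K (φ 0) hφ0 (H 1) hH1
    refine ih (G ⧸ H 1) (fun i => (H (i + 1)).map (QuotientGroup.mk' (H 1)))
      (fun i => X (i + 1)) (fun i => (QuotientGroup.mk' (H 1)).comp (φ (i + 1)))
      (N.map (QuotientGroup.mk' (H 1))) ?_ ?_ ?_ ?_ ?_ ?_
    · exact QuotientGroup.map_mk'_self (H 1)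
    · rw [hk]
    · intro i hi
      exact (hnorm (i + 1) (by omega)).map _ (QuotientGroup.mk'_surjective _)
    · intro i hi
      rw [hsup (i + 1) (by omega), Subgroup.map_sup, MonoidHom.map_range]
    · intro i hi f hf
      obtain ⟨h, hh, heq⟩ := Subgroup.mem_map.mp hf
      have h3 : h⁻¹ * φ (i + 1) f ∈ H 1 := QuotientGroup.eq.mp heq
      have h2 : φ (i + 1) f ∈ H (i + 1) := by
        have h4 := (H (i + 1)).mul_mem hh (hmono i (by omega) h3)
        rwa [mul_inv_cancel_left] at h4
      exact hinf (i + 1) (by omega) f h2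
    · exact noZero_of_injective'
        (MonoidAlgebra.mapDomainRingEquiv K
          (QuotientGroup.quotientQuotientEquivQuotient (H 1) N h1N)).toRingHom
        (RingEquiv.injective _) hQ

end Vale.Agent.Lib.P201.H86
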