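import Mathlib
import Vale.Agent.Lib.P201.H86.Invert

namespace Vale.Agent.Lib.P201.H86

section InvOp

variable {K : Type*} [Ring K] {G : Type*} [Group G]

/-- The anti-isomorphism `K[G] → Kᵐᵒᵖ[G]` sending `r • g` to `op r • g⁻¹`. -/
noncomputable def invOp : MonoidAlgebra K G ≃+ MonoidAlgebra Kᵐᵒᵖ G :=
  (MonoidAlgebra.mapDomainAddEquiv K (Equiv.inv G)).trans
    (MonoidAlgebra.mapAddEquiv G MulOpposite.opAddEquiv)

theorem invOp_single (g : G) (r : K) :
    invOp (MonoidAlgebra.single g r) = MonoidAlgebra.single g⁻¹ (MulOpposite.op r) := by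
  unfold invOp
  rw [AddEquiv.trans_apply, MonoidAlgebra.mapDomainAddEquiv_single,
    MonoidAlgebra.mapAddEquiv_single]
  rfl

theorem invOp_mul (a b : MonoidAlgebra K G) : invOp (a * b) = invOp b * invOp a := by
  induction a using MonoidAlgebra.induction_linear with
  | zero => rw [zero_mul, map_zero, mul_zero]
  | add a₁ a₂ h₁ h₂ => rw [add_mul, map_add, map_add, mul_add, h₁, h₂]
  | single g r =>
    induction b using MonoidAlgebra.induction_linear with
    | zero => rw [mul_zero, map_zero, zero_mul]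
    | add b₁ b₂ h₁ h₂ => rw [mul_add, map_add, map_add, add_mul, h₁, h₂]
    | single h s =>
      rw [MonoidAlgebra.single_mul_single, invOp_single, invOp_single, invOp_single,
        MonoidAlgebra.single_mul_single, mul_inv_rev, MulOpposite.op_mul]

theorem invOp_symm_mul (a b : MonoidAlgebra Kᵐᵒᵖ G) :
    invOp.symm (a * b) = invOp.symm b * invOp.symm a := by
  rw [AddEquiv.symm_apply_eq, invOp_mul, AddEquiv.apply_symm_apply, AddEquiv.apply_symm_apply]

theorem invOp_single_sub_one (g : G) :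
    invOp (MonoidAlgebra.single g (1 : K) - 1) = MonoidAlgebra.single g⁻¹ (1 : Kᵐᵒᵖ) - 1 := by
  rw [map_sub, invOp_single, MonoidAlgebra.one_def, invOp_single, inv_one, MulOpposite.op_one,
    MonoidAlgebra.one_def]

theorem invOp_symm_single_sub_one (g : G) :
    invOp.symm (MonoidAlgebra.single g⁻¹ (1 : Kᵐᵒᵖ) - 1) = MonoidAlgebra.single g (1 : K) - 1 := by
  rw [AddEquiv.symm_apply_eq, invOp_single_sub_one]

theorem mapDomainRingHom_invOp (N : Subgroup G) [N.Normal] (a : MonoidAlgebra K G) :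
    MonoidAlgebra.mapDomainRingHom Kᵐᵒᵖ (QuotientGroup.mk' N) (invOp a)
      = invOp (MonoidAlgebra.mapDomainRingHom K (QuotientGroup.mk' N) a) := by
  induction a using MonoidAlgebra.induction_linear with
  | zero => rw [map_zero, map_zero, map_zero, map_zero]
  | add a₁ a₂ h₁ h₂ => rw [map_add, map_add, map_add, map_add, h₁, h₂]
  | single g r =>
    have e : ∀ (h : G) (t : K), MonoidAlgebra.mapDomainRingHom K (QuotientGroup.mk' N)
        (MonoidAlgebra.single h t) = MonoidAlgebra.single (QuotientGroup.mk h : G ⧸ N) t :=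
      fun h t => MonoidAlgebra.mapDomain_single
    have e' : ∀ (h : G) (t : Kᵐᵒᵖ), MonoidAlgebra.mapDomainRingHom Kᵐᵒᵖ (QuotientGroup.mk' N)
        (MonoidAlgebra.single h t) = MonoidAlgebra.single (QuotientGroup.mk h : G ⧸ N) t :=
      fun h t => MonoidAlgebra.mapDomain_single
    rw [invOp_single, e, e', invOp_single, QuotientGroup.mk_inv]

end InvOp

section AssembleOp

variable {K : Type*} [Ring K] {X : Type*} {G : Type*} [Group G]

/-- Assembly for an arbitrary coefficient ring `K`: from the one-sided group-algebra-level data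
over `K` for the basis `x` (with separation) and over `Kᵐᵒᵖ` for the inverse basis `x⁻¹`, the
zero-divisor property passes from `K[G ⧸ N]` to `K[G]`. -/
theorem free_kernel_of_data_op
    (N : Subgroup G) [N.Normal] (ι : FreeGroup X →* G) (hN : N = ι.range)
    (h1 : ∃ D : X → MonoidAlgebra K G →+ MonoidAlgebra K G,
      (∀ x c, D x ((MonoidAlgebra.single (ι (FreeGroup.of x)) 1 - 1) * c) = c) ∧
      (∀ x y c, x ≠ y → D x ((MonoidAlgebra.single (ι (FreeGroup.of y)) 1 - 1) * c) = 0) ∧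
      (∀ a, MonoidAlgebra.mapDomainRingHom K (QuotientGroup.mk' N) a = 0 →
        ∃ s : Finset X, a = ∑ y ∈ s, (MonoidAlgebra.single (ι (FreeGroup.of y)) 1 - 1) * D y a) ∧
      (∀ a, (∀ u : List X, MonoidAlgebra.mapDomainRingHom K (QuotientGroup.mk' N)
          (u.foldl (fun acc x => D x acc) a) = 0) → a = 0))
    (h2 : ∃ D : X → MonoidAlgebra Kᵐᵒᵖ G →+ MonoidAlgebra Kᵐᵒᵖ G,
      (∀ x c, D x ((MonoidAlgebra.single ((ι (FreeGroup.of x))⁻¹) 1 - 1) * c) = c) ∧
      (∀ x y c, x ≠ y → D x ((MonoidAlgebra.single ((ι (FreeGroup.of y))⁻¹) 1 - 1) * c) = 0) ∧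
      (∀ a, MonoidAlgebra.mapDomainRingHom Kᵐᵒᵖ (QuotientGroup.mk' N) a = 0 →
        ∃ s : Finset X,
          a = ∑ y ∈ s, (MonoidAlgebra.single ((ι (FreeGroup.of y))⁻¹) 1 - 1) * D y a))
    (hB : ∀ a b : MonoidAlgebra K (G ⧸ N), a * b = 0 → a = 0 ∨ b = 0) :
    ∀ a b : MonoidAlgebra K G, a * b = 0 → a = 0 ∨ b = 0 := by
  obtain ⟨D, hD, hD0, hR, hS⟩ := h1
  obtain ⟨D2, hD2, hD20, hR2⟩ := h2
  set π := MonoidAlgebra.mapDomainRingHom K (QuotientGroup.mk' N) with hπ
  set w : X → MonoidAlgebra K G := fun y => MonoidAlgebra.single (ι (FreeGroup.of y)) 1 - 1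
    with hwdef
  have hw : ∀ y, π (w y) = 0 := by
    intro y
    have hmem : ι (FreeGroup.of y) ∈ N := by
      rw [hN]
      exact ⟨_, rfl⟩
    have e : π (MonoidAlgebra.single (ι (FreeGroup.of y)) (1 : K))
        = MonoidAlgebra.single (QuotientGroup.mk (ι (FreeGroup.of y)) : G ⧸ N) 1 :=
      MonoidAlgebra.mapDomain_single
    have e1 : (QuotientGroup.mk (ι (FreeGroup.of y)) : G ⧸ N) = 1 :=
      (QuotientGroup.eq_one_iff _).mpr hmem
    rw [hwdef]
    simp only
    rw [map_sub, map_one, e, e1, MonoidAlgebra.one_def]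
    exact sub_self _
  have hR' : ∀ a, π a = 0 → ∃ s : Finset X, ∃ f : X → MonoidAlgebra K G,
      a = ∑ y ∈ s, w y * f y := by
    intro a ha
    obtain ⟨s, hs⟩ := hR a ha
    exact ⟨s, fun y => D y a, hs⟩
  let D' : X → MonoidAlgebra K G →+ MonoidAlgebra K G := fun x =>
    ((invOp (K := K) (G := G)).symm.toAddMonoidHom.comp (D2 x)).comp
      (invOp (K := K) (G := G)).toAddMonoidHom
  have hD'apply : ∀ x a, D' x a = invOp.symm (D2 x (invOp a)) := fun x a => rfl
  have hD' : ∀ x c, D' x (c * w x) = c := by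
    intro x c
    rw [hD'apply, invOp_mul, hwdef]
    simp only
    rw [invOp_single_sub_one, hD2, AddEquiv.symm_apply_apply]
  have hD'0 : ∀ x y c, x ≠ y → D' x (c * w y) = 0 := by
    intro x y c hxy
    rw [hD'apply, invOp_mul, hwdef]
    simp only
    rw [invOp_single_sub_one, hD20 x y _ hxy, map_zero]
  have hL : ∀ a, π a = 0 → ∃ s : Finset X, ∃ f : X → MonoidAlgebra K G,
      a = ∑ y ∈ s, f y * w y := by
    intro a ha
    have ha' : MonoidAlgebra.mapDomainRingHom Kᵐᵒᵖ (QuotientGroup.mk' N) (invOp a) = 0 := by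
      rw [mapDomainRingHom_invOp, ← hπ, ha, map_zero]
    obtain ⟨s, hs⟩ := hR2 (invOp a) ha'
    refine ⟨s, fun y => D' y a, ?_⟩
    have h4 : invOp.symm (∑ y ∈ s, (MonoidAlgebra.single ((ι (FreeGroup.of y))⁻¹) (1 : Kᵐᵒᵖ) - 1)
        * D2 y (invOp a)) = ∑ y ∈ s, D' y a * w y := by
      rw [map_sum]
      refine Finset.sum_congr rfl ?_
      intro y _
      rw [invOp_symm_mul, invOp_symm_single_sub_one, hD'apply]
    rw [← hs, AddEquiv.symm_apply_apply] at h4
    exact h4
  have hsep : ∀ a, (∀ k, a ∈ Fil π k) → a = 0 := by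
    intro a ha
    apply hS a
    intro u
    exact Sfil_foldl π D u a (fun k => Fil_le_Sfil π w D hD hD0 hR' k (ha k))
  exact graded_domain π w hw hB D hD hD0 hR' D' hD' hD'0 hL hsep

end AssembleOp

end Vale.Agent.Lib.P201.H86
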